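import Vale.Agent.P122.H535.Cov
import Vale.Agent.P122.H377.E5Cut

/-!
# P122 / E5 : from the level `j` to a lower level (helper535)

* `Dens.up` : densities of the level `i + d` bound the densities of the level `i`
* `e5Up_of` : `E5Geo → E5Up`
-/

set_option autoImplicit false

namespace Vale.Agent.P122.E

open Filter Topology Finset Vale.Agent.P127 Vale.Agent.P127.Stk Vale.Agent.P127.U Vale.Agent.P127.U.Sys
  Vale.Agent.P122.C2

theorem abs_fw_le (θ : ℝ) {v : Fin 2 → ℝ} {r : ℝ} (h : ∀ k, |v k| ≤ r) : |fw θ v| ≤ 2 * r := by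
  have hc := Real.abs_cos_le_one θ
  have hs := Real.abs_sin_le_one θ
  unfold fw
  refine (abs_add_le _ _).trans ?_
  rw [abs_mul, abs_mul]
  have h0 := mul_le_mul hc (h 0) (abs_nonneg _) zero_le_one
  have h1 := mul_le_mul hs (h 1) (abs_nonneg _) zero_le_one
  linarith

theorem abs_fn_le (θ : ℝ) {v : Fin 2 → ℝ} {r : ℝ} (h : ∀ k, |v k| ≤ r) : |fn θ v| ≤ 2 * r := by
  have hc := Real.abs_cos_le_one θ
  have hs := Real.abs_sin_le_one θ
  unfold fn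
  refine (abs_add_le _ _).trans ?_
  rw [abs_mul, abs_mul, abs_neg]
  have h0 := mul_le_mul hs (h 0) (abs_nonneg _) zero_le_one
  have h1 := mul_le_mul hc (h 1) (abs_nonneg _) zero_le_one
  linarith

theorem fw_lin (θ a b : ℝ) (x y z : Fin 2 → ℝ) :
    fw θ (fun j => a * x j + b * y j + z j) = a * fw θ x + b * fw θ y + fw θ z := by
  unfold fw; ring

theorem fn_lin (θ a b : ℝ) (x y z : Fin 2 → ℝ) :
    fn θ (fun j => a * x j + b * y j + z j) = a * fn θ x + b * fn θ y + fn θ z := by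
  unfold fn; ring

/-- number of integers in an interval -/
theorem card_Icc_real {a r : ℝ} (hr : 1 ≤ r) : ((Icc ⌈a - r⌉ ⌊a + r⌋).card : ℝ) ≤ 3 * r := by
  rw [Int.card_Icc]
  have h1 := Int.floor_le (a + r)
  have h2 := Int.le_ceil (a - r)
  rcases le_total (⌊a + r⌋ + 1 - ⌈a - r⌉) 0 with h | h
  · rw [Int.toNat_of_nonpos h]
    simp
    linarith
  · have h4 : ((⌊a + r⌋ + 1 - ⌈a - r⌉).toNat : ℤ) = ⌊a + r⌋ + 1 - ⌈a - r⌉ := Int.toNat_of_nonneg h
    have h5 : (((⌊a + r⌋ + 1 - ⌈a - r⌉).toNat : ℤ) : ℝ) = ((⌊a + r⌋ + 1 - ⌈a - r⌉ : ℤ) : ℝ) := by rw [h4]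
    push_cast at h5
    rw [h5]
    linarith

/-- relation between a tube of level `i` and a tube of level `i + d` of the same flag -/
structure Rel2 (C' : ℝ) (s : ℕ → Z2 → Fin 2 → ℝ) (n i d : ℕ) (S S' : Nd) : Prop where
  T : S.T / 2 ^ (2 * d * n) = S'.T
  τ : ∀ k, S'.τ k / 2 ^ (d * n) = S.τ k
  slp : ∀ k, |s (i + d) S'.τ k - s i S.τ k| ≤ C' / 2 ^ (i * n)
  pos : ∀ k, |(2:ℝ) ^ (i * n) * (S.o k : ℝ) - (2 ^ ((i + d) * n) * (S'.o k : ℝ) +
    ((S.T : ℝ) * 2 ^ (2 * i * n) - (S'.T : ℝ) * 2 ^ (2 * (i + d) * n)) * s (i + d) S'.τ k)| ≤ C' * 2 ^ ((i + d) * n)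
  t0 : 0 ≤ (S.T : ℝ) * 2 ^ (2 * i * n) - (S'.T : ℝ) * 2 ^ (2 * (i + d) * n)
  t1 : (S.T : ℝ) * 2 ^ (2 * i * n) - (S'.T : ℝ) * 2 ^ (2 * (i + d) * n) ≤ 2 ^ (2 * (i + d) * n)

/-- the tube of level `i + d` in the plank of the tube of level `i` -/
theorem Rel2.plank {C' : ℝ} (hC : 1 ≤ C') {s : ℕ → Z2 → Fin 2 → ℝ} {n i d : ℕ} {S S' : Nd} (h : Rel2 C' s n i d S S')
    {u : ℝ} (hu : (1 / 2 : ℝ) ^ (i * n) ≤ u) (p v : Fin 2 → ℝ) (f : (Fin 2 → ℝ) → ℝ)
    (hf : ∀ (a b : ℝ) (x y z : Fin 2 → ℝ), f (fun j => a * x j + b * y j + z j) = a * f x + b * f y + f z)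
    (hb : ∀ (z : Fin 2 → ℝ) (r : ℝ), (∀ k, |z k| ≤ r) → |f z| ≤ 2 * r)
    (h1 : |f (fun j => (S.o j : ℝ) / 2 ^ (i * n) - p j)| ≤ u) (h2 : |f (fun j => s i S.τ j - v j)| ≤ u) :
    |f (fun j => (S'.o j : ℝ) / 2 ^ ((i + d) * n) - ((1 / 2) ^ (2 * d * n) * p j -
      ((S.T : ℝ) * 2 ^ (2 * i * n) - (S'.T : ℝ) * 2 ^ (2 * (i + d) * n)) / 2 ^ (2 * (i + d) * n) * v j))| ≤ 6 * C' * u ∧
    |f (fun j => s (i + d) S'.τ j - v j)| ≤ 3 * C' * u := by
  have hu0 : 0 < u := lt_of_lt_of_le (by positivity) hu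
  have hhalf : ∀ m : ℕ, (1 / 2 : ℝ) ^ m = 1 / 2 ^ m := fun m => by rw [one_div, inv_pow, one_div]
  -- slopes
  have e2 : |f (fun j => s (i + d) S'.τ j - v j)| ≤ 3 * C' * u := by
    have e3 : (fun j => s (i + d) S'.τ j - v j) =
        fun j => 1 * (s i S.τ j - v j) + 0 * (0 : ℝ) + (s (i + d) S'.τ j - s i S.τ j) := by
      funext j; ring
    rw [e3, hf 1 0 (fun j => s i S.τ j - v j) (fun _ => 0) (fun j => s (i + d) S'.τ j - s i S.τ j)]
    have h4 := hb (fun j => s (i + d) S'.τ j - s i S.τ j) _ h.slp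
    have h5 : C' / 2 ^ (i * n) ≤ C' * u := by
      rw [hhalf] at hu
      rw [div_eq_mul_one_div]
      exact mul_le_mul_of_nonneg_left hu (by linarith)
    rw [abs_le] at h4 h2 ⊢
    constructor <;> nlinarith
  refine ⟨?_, e2⟩
  set t : ℝ := (S.T : ℝ) * 2 ^ (2 * i * n) - (S'.T : ℝ) * 2 ^ (2 * (i + d) * n) with ht
  set R : ℝ := 2 ^ (2 * (i + d) * n) with hR
  have hR0 : 0 < R := by positivity
  have hq0 : 0 ≤ t / R := div_nonneg h.t0 hR0.le
  have hq1 : t / R ≤ 1 := by rw [div_le_one hR0]; exact h.t1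
  -- the error
  set z : Fin 2 → ℝ := fun j => (S'.o j : ℝ) / 2 ^ ((i + d) * n) + t / R * s (i + d) S'.τ j -
    (1 / 2) ^ (2 * d * n) * ((S.o j : ℝ) / 2 ^ (i * n)) with hz
  have hz1 : ∀ k, |z k| ≤ C' * u := by
    intro k
    have h3 := h.pos k
    rw [← ht] at h3
    have a1 : (2:ℝ) ^ (i * n) ≠ 0 := by positivity
    have a2 : (2:ℝ) ^ (d * n) ≠ 0 := by positivity
    have e4 : z k = -((2:ℝ) ^ (i * n) * (S.o k : ℝ) - (2 ^ ((i + d) * n) * (S'.o k : ℝ) + t * s (i + d) S'.τ k)) / R := by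
      rw [hz, hR, hhalf]
      have b1 : (2:ℝ) ^ (2 * (i + d) * n) = (2 ^ (i * n)) ^ 2 * (2 ^ (d * n)) ^ 2 := by
        rw [← pow_mul, ← pow_mul, ← pow_add]; congr 1; ring
      have b2 : (2:ℝ) ^ ((i + d) * n) = 2 ^ (i * n) * 2 ^ (d * n) := by rw [← pow_add]; congr 1; ring
      have b3 : (2:ℝ) ^ (2 * d * n) = (2 ^ (d * n)) ^ 2 := by rw [← pow_mul]; congr 1; ring
      rw [b1, b2, b3]
      field_simp
      ring
    rw [e4, abs_div, abs_neg, abs_of_pos hR0, div_le_iff₀ hR0]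
    refine h3.trans ?_
    have h6 : (2:ℝ) ^ ((i + d) * n) ≤ u * R := by
      have h7 : (2:ℝ) ^ ((i + d) * n) ≤ (1 / 2 : ℝ) ^ (i * n) * R := by
        rw [hR, hhalf, one_div, ← div_eq_inv_mul, le_div_iff₀ (by positivity), ← pow_add]
        refine pow_le_pow_right₀ (by norm_num) ?_
        nlinarith [Nat.zero_le (d * n), Nat.zero_le (i * n)]
      exact h7.trans (mul_le_mul_of_nonneg_right hu hR0.le)
    calc C' * 2 ^ ((i + d) * n) ≤ C' * (u * R) := mul_le_mul_of_nonneg_left h6 (by linarith)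
      _ = C' * u * R := by ring
  have e5 : (fun j => (S'.o j : ℝ) / 2 ^ ((i + d) * n) - ((1 / 2) ^ (2 * d * n) * p j - t / R * v j)) =
      fun j => (1 / 2) ^ (2 * d * n) * ((S.o j : ℝ) / 2 ^ (i * n) - p j) + (-(t / R)) * (s (i + d) S'.τ j - v j) + z j := by
    funext j
    simp only [hz]
    ring
  rw [e5, hf ((1 / 2) ^ (2 * d * n)) (-(t / R)) (fun j => (S.o j : ℝ) / 2 ^ (i * n) - p j)
    (fun j => s (i + d) S'.τ j - v j) z]
  have h8 := hb z _ hz1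
  have h9 : |(1 / 2 : ℝ) ^ (2 * d * n) * f (fun j => (S.o j : ℝ) / 2 ^ (i * n) - p j)| ≤ u := by
    rw [abs_mul, abs_of_nonneg (by positivity : (0:ℝ) ≤ (1 / 2 : ℝ) ^ (2 * d * n))]
    have : (1 / 2 : ℝ) ^ (2 * d * n) ≤ 1 := pow_le_one₀ (by norm_num) (by norm_num)
    calc _ ≤ 1 * u := mul_le_mul this h1 (abs_nonneg _) zero_le_one
      _ = u := one_mul u
  have h10 : |(-(t / R)) * f (fun j => s (i + d) S'.τ j - v j)| ≤ 3 * C' * u := by
    rw [abs_mul, abs_neg, abs_of_nonneg hq0]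
    calc _ ≤ 1 * (3 * C' * u) := mul_le_mul hq1 e2 (abs_nonneg _) zero_le_one
      _ = _ := one_mul _
  rw [abs_le] at h8 h9 h10 ⊢
  constructor <;> nlinarith

/-- **densities of the lower level** -/
theorem Dens.up {C' lam : ℝ} (hC : 1 ≤ C') {s : ℕ → Z2 → Fin 2 → ℝ} {n i d : ℕ} {D D' : Set Nd}
    (hD : ∀ S ∈ D, ∃ S' ∈ D', Rel2 C' s n i d S S') (h : Dens s n (i + d) D' lam) :
    Dens s n i D ((3 * C') ^ 2 * ((4 * (6 * C')) ^ 2 * (4 * (3 * C')) ^ 2) * 2 ^ (4 * d * n) * lam) := by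
  classical
  intro θ u1 u2 p v T U h0 h12 h1 hU
  have hu1 : 0 < u1 := lt_of_lt_of_le (by positivity) h0
  have hu2 : 0 < u2 := lt_of_lt_of_le hu1 h12
  have hD' : ∀ S : Nd, ∃ S' : Nd, S ∈ D → S' ∈ D' ∧ Rel2 C' s n i d S S' := by
    intro S
    by_cases hS : S ∈ D
    · obtain ⟨S', h2, h3⟩ := hD S hS
      exact ⟨S', fun _ => ⟨h2, h3⟩⟩
    · exact ⟨S, fun h2 => absurd h2 hS⟩
  choose f hf using hD'
  set T' : ℤ := T / 2 ^ (2 * d * n) with hT'
  set t : ℝ := (T : ℝ) * 2 ^ (2 * i * n) - (T' : ℝ) * 2 ^ (2 * (i + d) * n) with ht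
  have hle : (1 / 2 : ℝ) ^ ((i + d) * n) ≤ (1 / 2 : ℝ) ^ (i * n) :=
    pow_le_pow_of_le_one (by norm_num) (by norm_num) (Nat.mul_le_mul_right _ (Nat.le_add_right _ _))
  -- the image
  have c1 : ((U.image f).card : ℝ) ≤ (4 * (6 * C')) ^ 2 * (4 * (3 * C')) ^ 2 *
      (lam * (u1 * u2 * 2 ^ (2 * (i + d) * n))) := by
    refine h.cov (A1 := 6 * C') (A2 := 3 * C') (θ := θ) (u1 := u1) (u2 := u2)
      (p := fun j => (1 / 2) ^ (2 * d * n) * p j - t / 2 ^ (2 * (i + d) * n) * v j) (v := v) (T := T')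
      (by linarith) (by linarith) (hle.trans h0) h12 h1 ?_
    intro S' hS'
    obtain ⟨S, hS, rfl⟩ := mem_image.1 hS'
    obtain ⟨a1, a2, b1, b2, b3, b4⟩ := hU S hS
    obtain ⟨h2, h3⟩ := hf S a1
    have hT2 : (f S).T = T' := by rw [← h3.T, a2]
    have q1 := h3.plank hC (h0.trans h12) p v (fw θ) (fun a b x y z => fw_lin θ a b x y z)
      (fun z r hz => abs_fw_le θ hz) b1 b3
    have q2 := h3.plank hC h0 p v (fn θ) (fun a b x y z => fn_lin θ a b x y z)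
      (fun z r hz => abs_fn_le θ hz) b2 b4
    rw [a2, hT2] at q1 q2
    exact ⟨h2, hT2, q1.1, q2.1, q1.2, q2.2⟩
  -- the fibres
  set r : ℝ := C' * 2 ^ (d * n) with hr
  have hr1 : 1 ≤ r := by
    have : (1:ℝ) ≤ 2 ^ (d * n) := one_le_pow₀ (by norm_num)
    nlinarith
  have c2 : ∀ b ∈ U.image f, ((U.filter fun S => f S = b).card : ℝ) ≤ (3 * r) ^ 2 := by
    intro b _
    set a : Fin 2 → ℝ := fun k => (2 ^ ((i + d) * n) * (b.o k : ℝ) + t * s (i + d) b.τ k) / 2 ^ (i * n) with ha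
    have hinj : Set.InjOn (fun S : Nd => S.o) (U.filter fun S => f S = b : Finset Nd) := by
      intro S hS S2 hS2 he
      obtain ⟨g1, g2⟩ := mem_filter.1 (mem_coe.1 hS)
      obtain ⟨g3, g4⟩ := mem_filter.1 (mem_coe.1 hS2)
      have r1 := (hf S (hU S g1).1).2
      have r2 := (hf S2 (hU S2 g3).1).2
      rw [g2] at r1
      rw [g4] at r2
      refine Nd.ext ?_ he ?_
      · funext k
        rw [← r1.τ k, ← r2.τ k]
      · rw [(hU S g1).2.1, (hU S2 g3).2.1]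
    have hmaps : ((U.filter fun S => f S = b).image fun S : Nd => S.o) ⊆
        Fintype.piFinset fun k => Icc ⌈a k - r⌉ ⌊a k + r⌋ := by
      intro o ho
      obtain ⟨S, hS, rfl⟩ := mem_image.1 ho
      obtain ⟨g1, g2⟩ := mem_filter.1 hS
      have r1 := (hf S (hU S g1).1).2
      have hT2 : (f S).T = T' := by rw [← r1.T, (hU S g1).2.1]
      rw [Fintype.mem_piFinset]
      intro k
      have h3 := r1.pos k
      rw [(hU S g1).2.1, hT2, g2, ← ht] at h3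
      have h4 : |(S.o k : ℝ) - a k| ≤ r := by
        have e1 : (S.o k : ℝ) - a k = ((2:ℝ) ^ (i * n) * (S.o k : ℝ) -
            (2 ^ ((i + d) * n) * (b.o k : ℝ) + t * s (i + d) b.τ k)) / 2 ^ (i * n) := by
          rw [ha]; field_simp
        rw [e1, abs_div, abs_of_pos (by positivity : (0:ℝ) < 2 ^ (i * n)), div_le_iff₀ (by positivity)]
        refine h3.trans (le_of_eq ?_)
        have b2 : (2:ℝ) ^ ((i + d) * n) = 2 ^ (i * n) * 2 ^ (d * n) := by rw [← pow_add]; congr 1; ring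
        rw [hr, b2]; ring
      rw [abs_le] at h4
      rw [mem_Icc, Int.ceil_le, Int.le_floor]
      constructor <;> linarith [h4.1, h4.2]
    have h5 : ((U.filter fun S => f S = b).card : ℝ) ≤ ∏ k : Fin 2, ((Icc ⌈a k - r⌉ ⌊a k + r⌋).card : ℝ) := by
      rw [← card_image_of_injOn hinj]
      have := card_le_card hmaps
      rw [Fintype.card_piFinset] at this
      exact_mod_cast this
    refine h5.trans ?_
    rw [Fin.prod_univ_two, pow_two]
    exact mul_le_mul (card_Icc_real hr1) (card_Icc_real hr1) (Nat.cast_nonneg _) (by positivity)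
  have hsum : (U.card : ℝ) = ∑ b ∈ U.image f, ((U.filter fun S => f S = b).card : ℝ) := by
    have := card_eq_sum_card_image f U
    exact_mod_cast this
  rw [hsum]
  refine (sum_le_sum c2).trans ?_
  rw [sum_const, nsmul_eq_mul]
  refine (mul_le_mul_of_nonneg_right c1 (by positivity)).trans (le_of_eq ?_)
  have b1 : (2:ℝ) ^ (2 * (i + d) * n) = 2 ^ (2 * i * n) * (2 ^ (d * n)) ^ 2 := by
    rw [← pow_mul, ← pow_add]; congr 1; ring
  have b3 : (2:ℝ) ^ (4 * d * n) = (2 ^ (d * n)) ^ 4 := by rw [← pow_mul]; congr 1; ring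
  rw [b1, b3, hr]
  ring

theorem e5_two_pow (S : Sys) {ε : ℝ} (hε : 0 < ε) (C : ℝ) :
    ∀ᶠ i in (uf : Filter ℕ), C ≤ (2 : ℝ) ^ (ε * S.L i) := by
  have h1 : Tendsto (fun i => ε * (S.L i : ℝ)) (uf : Filter ℕ) atTop :=
    (tendsto_natCast_atTop_atTop.comp S.Ltop).const_mul_atTop hε
  have h2 : Tendsto (fun x : ℝ => (2 : ℝ) ^ x) atTop atTop := tendsto_rpow_atTop_of_base_gt_one 2 (by norm_num)
  exact (h2.comp h1).eventually_ge_atTop C

/-- **E5Up** -/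
theorem e5Up_of (hG : E5Geo) : E5Up := by
  intro K F i j e hK hij hj h
  obtain ⟨d, rfl⟩ := Nat.exists_eq_add_of_le hij
  obtain ⟨C', hC, hg⟩ := hG F
  have hK0 : (0 : ℝ) < K := by exact_mod_cast hK
  intro ε hε
  filter_upwards [h (ε / 2) (by positivity), e5_two_pow F.S (half_pos hε)
    ((3 * C') ^ 2 * ((4 * (6 * C')) ^ 2 * (4 * (3 * C')) ^ 2))] with ι h1 h2
  have h3 := Dens.up (n := F.n ι) (s := F.s ι) (i := i) (d := d)
    (D := {S | ∃ ω, 0 < (F.S.P ι).w ω ∧ F.N i ι ω = S}) hC (by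
      rintro S ⟨ω, hω, rfl⟩
      obtain ⟨a1, a2, -, a3, a4, a5, a6⟩ := hg ι ω hω i (i + d) hij hj
      rw [Nat.add_sub_cancel_left] at a1
      simp only [Nat.add_sub_cancel_left] at a2
      exact ⟨_, ⟨ω, hω, rfl⟩, ⟨a1, a2, a3, a4, a5, a6⟩⟩) h1
  intro θ u1 u2 p v T U h0 h12 h1 hU
  refine (h3 θ u1 u2 p v T U h0 h12 h1 hU).trans ?_
  have hu1 : 0 < u1 := lt_of_lt_of_le (by positivity) h0
  have hu2 : 0 < u2 := lt_of_lt_of_le hu1 h12
  refine mul_le_mul_of_nonneg_right ?_ (by positivity)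
  have hL : (F.S.L ι : ℝ) = K * F.n ι := by rw [F.L_eq ι]; push_cast; ring
  have e1 : (2:ℝ) ^ (4 * d * F.n ι) = 2 ^ (4 * (((i + d : ℕ) : ℝ) - i) / K * F.S.L ι) := by
    rw [← Real.rpow_natCast, hL]
    congr 1
    push_cast
    field_simp
    ring
  have e2 : (e + 4 * (((i + d : ℕ) : ℝ) - i) / K + ε) * F.S.L ι =
      ε / 2 * F.S.L ι + 4 * (((i + d : ℕ) : ℝ) - i) / K * F.S.L ι + (e + ε / 2) * F.S.L ι := by ring
  rw [e2, Real.rpow_add (by norm_num), Real.rpow_add (by norm_num), e1]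
  refine mul_le_mul_of_nonneg_right (mul_le_mul_of_nonneg_right h2 ?_) ?_ <;> positivity

end Vale.Agent.P122.E
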