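import Vale.Agent.P122.H377.E5

/-! # P122 / E5 : `E5 26` (helper377, helper369, helper327, helper535) -/

set_option autoImplicit false

namespace Vale.Agent.P122.E

/-- **E5** -/
theorem e5 : E5 26 := e5_377

end Vale.Agent.P122.E
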