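import Vale.Agent.P122.E.Defs

/-!
# P122 / E5 : planks of dilated widths (helper535)

* `Dens.cov` : a bound of all densities bounds the number of tubes in a plank whose widths are dilated by `A1` (positions)
  and `A2` (slopes), with the loss `(4 A1)^2 (4 A2)^2`.
-/

set_option autoImplicit false

namespace Vale.Agent.P122.E

open Finset Vale.Agent.P122.C2

theorem fw_sub (θ : ℝ) (a b p : Fin 2 → ℝ) :
    fw θ (fun j => a j - b j) = fw θ (fun j => a j - p j) - fw θ (fun j => b j - p j) := by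
  unfold fw; ring

theorem fn_sub (θ : ℝ) (a b p : Fin 2 → ℝ) :
    fn θ (fun j => a j - b j) = fn θ (fun j => a j - p j) - fn θ (fun j => b j - p j) := by
  unfold fn; ring

/-- numbers with the same floor after division by `u` -/
theorem abs_sub_le_of_floor {u z z' : ℝ} (hu : 0 < u) (h : ⌊z / u⌋ = ⌊z' / u⌋) : |z - z'| ≤ u := by
  have h1 := Int.floor_le (z / u)
  have h2 := Int.lt_floor_add_one (z / u)
  have h3 := Int.floor_le (z' / u)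
  have h4 := Int.lt_floor_add_one (z' / u)
  rw [h] at h1 h2
  have h5 : z / u - z' / u ≤ 1 := by linarith
  have h6 : z' / u - z / u ≤ 1 := by linarith
  rw [← sub_div, div_le_iff₀ hu] at h5 h6
  rw [abs_le]
  constructor <;> linarith

/-- the values of the floor -/
theorem floor_mem_Icc {u z A : ℝ} (hu : 0 < u) (h : |z| ≤ A * u) : ⌊z / u⌋ ∈ Icc (-⌈A⌉) ⌊A⌋ := by
  rw [abs_le] at h
  rw [mem_Icc]
  constructor
  · rw [Int.le_floor, Int.cast_neg]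
    have h1 : -A ≤ z / u := by rw [le_div_iff₀ hu]; linarith [h.1]
    linarith [Int.le_ceil A]
  · refine Int.floor_le_floor ?_
    rw [div_le_iff₀ hu]
    exact h.2

theorem card_Icc_le {A : ℝ} (hA : 1 ≤ A) : ((Icc (-⌈A⌉) ⌊A⌋).card : ℝ) ≤ 4 * A := by
  rw [Int.card_Icc]
  have h1 : (0 : ℤ) ≤ ⌊A⌋ := Int.floor_nonneg.2 (by linarith)
  have h2 : (0 : ℤ) ≤ ⌈A⌉ := Int.ceil_nonneg (by linarith)
  have h3 : ((⌊A⌋ + 1 - -⌈A⌉).toNat : ℝ) = (⌊A⌋ : ℝ) + 1 + ⌈A⌉ := by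
    have h4 : ((⌊A⌋ + 1 - -⌈A⌉).toNat : ℤ) = ⌊A⌋ + 1 - -⌈A⌉ := Int.toNat_of_nonneg (by omega)
    have h5 : (((⌊A⌋ + 1 - -⌈A⌉).toNat : ℤ) : ℝ) = ((⌊A⌋ + 1 - -⌈A⌉ : ℤ) : ℝ) := by rw [h4]
    push_cast at h5
    linarith
  rw [h3]
  linarith [Int.floor_le A, Int.ceil_lt_add_one A]

/-- **dilated planks** -/
theorem Dens.cov {s : ℕ → Z2 → Fin 2 → ℝ} {n c : ℕ} {D : Set Nd} {lam : ℝ} (h : Dens s n c D lam)
    {A1 A2 θ u1 u2 : ℝ} {p v : Fin 2 → ℝ} {T : ℤ} {U : Finset Nd} (hA1 : 1 ≤ A1) (hA2 : 1 ≤ A2)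
    (h0 : (1 / 2 : ℝ) ^ (c * n) ≤ u1) (h12 : u1 ≤ u2) (h1 : u2 ≤ 1)
    (hU : ∀ S ∈ U, S ∈ D ∧ S.T = T ∧
      |fw θ (fun j => (S.o j : ℝ) / 2 ^ (c * n) - p j)| ≤ A1 * u2 ∧
      |fn θ (fun j => (S.o j : ℝ) / 2 ^ (c * n) - p j)| ≤ A1 * u1 ∧
      |fw θ (fun j => s c S.τ j - v j)| ≤ A2 * u2 ∧ |fn θ (fun j => s c S.τ j - v j)| ≤ A2 * u1) :
    (U.card : ℝ) ≤ (4 * A1) ^ 2 * (4 * A2) ^ 2 * (lam * (u1 * u2 * 2 ^ (2 * c * n))) := by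
  classical
  have hu1 : 0 < u1 := lt_of_lt_of_le (by positivity) h0
  have hu2 : 0 < u2 := lt_of_lt_of_le hu1 h12
  have hb : 0 ≤ lam * (u1 * u2 * 2 ^ (2 * c * n)) := by
    have := h θ u1 u2 p v T ∅ h0 h12 h1 (by simp)
    simpa using this
  let g : Nd → (ℤ × ℤ) × (ℤ × ℤ) := fun S =>
    ((⌊fw θ (fun j => (S.o j : ℝ) / 2 ^ (c * n) - p j) / u2⌋, ⌊fn θ (fun j => (S.o j : ℝ) / 2 ^ (c * n) - p j) / u1⌋),
      (⌊fw θ (fun j => s c S.τ j - v j) / u2⌋, ⌊fn θ (fun j => s c S.τ j - v j) / u1⌋))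
  have hfib : ∀ b ∈ U.image g, ((U.filter fun S => g S = b).card : ℝ) ≤ lam * (u1 * u2 * 2 ^ (2 * c * n)) := by
    intro b hb'
    obtain ⟨S0, hS0, rfl⟩ := mem_image.1 hb'
    refine h θ u1 u2 (fun j => (S0.o j : ℝ) / 2 ^ (c * n)) (s c S0.τ) T _ h0 h12 h1 ?_
    intro S hS
    obtain ⟨hS1, hS2⟩ := mem_filter.1 hS
    obtain ⟨a1, a2, -⟩ := hU S hS1
    simp only [g, Prod.mk.injEq] at hS2
    obtain ⟨⟨b1, b2⟩, b3, b4⟩ := hS2
    refine ⟨a1, a2, ?_, ?_, ?_, ?_⟩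
    · rw [fw_sub θ _ _ p]; exact abs_sub_le_of_floor hu2 b1
    · rw [fn_sub θ _ _ p]; exact abs_sub_le_of_floor hu1 b2
    · rw [fw_sub θ _ _ v]; exact abs_sub_le_of_floor hu2 b3
    · rw [fn_sub θ _ _ v]; exact abs_sub_le_of_floor hu1 b4
  have himg : ((U.image g).card : ℝ) ≤ (4 * A1) ^ 2 * (4 * A2) ^ 2 := by
    have hsub : U.image g ⊆ (Icc (-⌈A1⌉) ⌊A1⌋ ×ˢ Icc (-⌈A1⌉) ⌊A1⌋) ×ˢ (Icc (-⌈A2⌉) ⌊A2⌋ ×ˢ Icc (-⌈A2⌉) ⌊A2⌋) := by
      intro b hb'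
      obtain ⟨S, hS, rfl⟩ := mem_image.1 hb'
      obtain ⟨-, -, a1, a2, a3, a4⟩ := hU S hS
      simp only [g, mem_product]
      exact ⟨⟨floor_mem_Icc hu2 a1, floor_mem_Icc hu1 a2⟩, floor_mem_Icc hu2 a3, floor_mem_Icc hu1 a4⟩
    have hc1 := card_Icc_le hA1
    have hc2 := card_Icc_le hA2
    have hc : ((U.image g).card : ℝ) ≤ ((Icc (-⌈A1⌉) ⌊A1⌋).card : ℝ) ^ 2 * ((Icc (-⌈A2⌉) ⌊A2⌋).card : ℝ) ^ 2 := by
      have := card_le_card hsub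
      rw [card_product, card_product, card_product, ← pow_two, ← pow_two] at this
      exact_mod_cast this
    refine hc.trans ?_
    gcongr
  have hsum : (U.card : ℝ) = ∑ b ∈ U.image g, ((U.filter fun S => g S = b).card : ℝ) := by
    have := card_eq_sum_card_image g U
    exact_mod_cast this
  rw [hsum]
  refine (sum_le_sum hfib).trans ?_
  rw [sum_const, nsmul_eq_mul]
  exact mul_le_mul_of_nonneg_right himg hb

end Vale.Agent.P122.E
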