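import Vale.Agent.P122.H377.E5Cut

/-!
# P122 / E5 : geometry of one flag (helper535)

`G535.e5Geo535 : E5Geo` (independent second proof; helper377's `e5Geo` is the official one)
-/

set_option autoImplicit false

namespace Vale.Agent.P122.E

open Filter Topology Finset Vale.Agent.P127 Vale.Agent.P127.Stk Vale.Agent.P127.U Vale.Agent.P127.U.Sys
  Vale.Agent.P122.C2

namespace G535

variable {K : ℕ} (F : Flg K)

theorem geo_kid {n : ℕ} {τ τ' : Z2} (h : τ' ∈ kids n τ) (k : Fin 2) :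
    2 ^ n * τ k ≤ τ' k ∧ τ' k < 2 ^ n * (τ k + 1) := by
  unfold kids at h
  rw [Fintype.mem_piFinset] at h
  exact mem_Ico.1 (h k)

theorem geo_div {n : ℕ} {τ τ' : Z2} (h : τ' ∈ kids n τ) (k : Fin 2) : τ' k / 2 ^ n = τ k := by
  obtain ⟨h1, h2⟩ := geo_kid h k
  have h0 : (0 : ℤ) < 2 ^ n := by positivity
  refine le_antisymm ?_ ?_
  · have : τ' k / 2 ^ n < τ k + 1 := Int.ediv_lt_of_lt_mul h0 (by linarith)
    omega
  · rw [Int.le_ediv_iff_mul_le h0]
    linarith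

theorem geo_cap {i : ℕ} {ω : F.S.Ω i} (hω : 0 < (F.S.P i).w ω) {d : ℕ} (hd : d ≤ K) :
    Cap (F.n i) d (F.N d i ω).τ := by
  induction d with
  | zero =>
    intro k
    rw [(F.root i ω hω).1]
    simp
  | succ d ih =>
    intro k
    obtain ⟨h1, h2⟩ := geo_kid (F.step i ω hω d hd).1 k
    obtain ⟨h3, h4⟩ := ih (by omega) k
    have h0 : (0 : ℤ) < 2 ^ F.n i := by positivity
    have e : ((2 : ℤ) ^ ((d + 1) * F.n i)) = 2 ^ F.n i * 2 ^ (d * F.n i) := by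
      rw [← pow_add]; congr 1; ring
    rw [e]
    constructor
    · nlinarith
    · refine lt_of_lt_of_le h2 ?_
      exact mul_le_mul_of_nonneg_left (by omega) h0.le

theorem geo_T1 {i : ℕ} {ω : F.S.Ω i} (hω : 0 < (F.S.P i).w ω) {d : ℕ} (hd : d < K) :
    (F.N (d + 1) i ω).T = (F.N d i ω).T / 2 ^ (2 * F.n i) := by
  have h := (F.step i ω hω d hd).2
  have h1 := congrArg Nd.T h
  exact h1

theorem geo_T {i : ℕ} {ω : F.S.Ω i} (hω : 0 < (F.S.P i).w ω) {c d : ℕ} (hcd : c ≤ d) (hd : d ≤ K) :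
    (F.N c i ω).T / 2 ^ (2 * (d - c) * F.n i) = (F.N d i ω).T := by
  induction d, hcd using Nat.le_induction with
  | base => simp
  | succ d hcd ih =>
    rw [geo_T1 F hω hd, ← ih (by omega)]
    have e : 2 * (d + 1 - c) * F.n i = 2 * (d - c) * F.n i + 2 * F.n i := by
      have : d + 1 - c = (d - c) + 1 := by omega
      rw [this]; ring
    rw [e, pow_add]
    exact (Int.ediv_ediv_of_nonneg (by positivity)).symm

theorem geo_τ {i : ℕ} {ω : F.S.Ω i} (hω : 0 < (F.S.P i).w ω) {c d : ℕ} (hcd : c ≤ d) (hd : d ≤ K) (k : Fin 2) :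
    (F.N d i ω).τ k / 2 ^ ((d - c) * F.n i) = (F.N c i ω).τ k := by
  induction d, hcd using Nat.le_induction with
  | base => simp
  | succ d hcd ih =>
    rw [← ih (by omega), ← geo_div (F.step i ω hω d hd).1 k]
    have e : (d + 1 - c) * F.n i = F.n i + (d - c) * F.n i := by
      have : d + 1 - c = (d - c) + 1 := by omega
      rw [this]; ring
    rw [e, pow_add]
    exact (Int.ediv_ediv_of_nonneg (by positivity)).symm

/-- time of the block -/
noncomputable def gt (i : ℕ) (ω : F.S.Ω i) (c : ℕ) : ℝ := ((F.N c i ω).T : ℝ) * 2 ^ (2 * c * F.n i)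

theorem geo_mod (a : ℤ) (m : ℕ) : ((a % 2 ^ m : ℤ) : ℝ) = (a : ℝ) - 2 ^ m * ((a / 2 ^ m : ℤ) : ℝ) := by
  have h := Int.emod_add_mul_ediv a (2 ^ m)
  have h1 : ((a % 2 ^ m + 2 ^ m * (a / 2 ^ m) : ℤ) : ℝ) = a := by rw [h]
  push_cast at h1
  linarith

theorem geo_t {i : ℕ} {ω : F.S.Ω i} (hω : 0 < (F.S.P i).w ω) {c d : ℕ} (hcd : c ≤ d) (hd : d ≤ K) :
    0 ≤ gt F i ω c - gt F i ω d ∧ gt F i ω c - gt F i ω d ≤ 2 ^ (2 * d * F.n i) := by
  obtain ⟨e, rfl⟩ := Nat.exists_eq_add_of_le hcd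
  have h1 := geo_T F hω hcd hd
  rw [Nat.add_sub_cancel_left] at h1
  have h2 := geo_mod (F.N c i ω).T (2 * e * F.n i)
  rw [h1] at h2
  have h0 : (0 : ℤ) < 2 ^ (2 * e * F.n i) := by positivity
  have h3 : (0 : ℝ) ≤ (((F.N c i ω).T % 2 ^ (2 * e * F.n i) : ℤ) : ℝ) := by
    exact_mod_cast Int.emod_nonneg _ h0.ne'
  have h4 : (((F.N c i ω).T % 2 ^ (2 * e * F.n i) : ℤ) : ℝ) ≤ 2 ^ (2 * e * F.n i) := by
    exact_mod_cast (Int.emod_lt_of_pos (F.N c i ω).T h0).le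
  have e1 : (2 : ℝ) ^ (2 * (c + e) * F.n i) = 2 ^ (2 * e * F.n i) * 2 ^ (2 * c * F.n i) := by
    rw [← pow_add]; congr 1; ring
  have h5 : gt F i ω c - gt F i ω (c + e) =
      (((F.N c i ω).T % 2 ^ (2 * e * F.n i) : ℤ) : ℝ) * 2 ^ (2 * c * F.n i) := by
    unfold gt
    rw [h2, e1]
    ring
  rw [h5, e1]
  exact ⟨by positivity, mul_le_mul_of_nonneg_right h4 (by positivity)⟩

theorem geo_slp1 {i : ℕ} {ω : F.S.Ω i} (hω : 0 < (F.S.P i).w ω) {d : ℕ} (hd : d < K) (k : Fin 2) :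
    |F.s i (d + 1) (F.N (d + 1) i ω).τ k - F.s i d (F.N d i ω).τ k| ≤ |F.C| / 2 ^ (d * F.n i) := by
  have h1 := (F.slp i).nest d _ k hd (geo_cap F hω hd)
  have h2 : par (F.n i) (F.N (d + 1) i ω).τ = (F.N d i ω).τ := by
    funext k
    exact geo_div (F.step i ω hω d hd).1 k
  rw [h2] at h1
  exact h1.trans (div_le_div_of_nonneg_right (le_abs_self _) (by positivity))

theorem geo_slp {i : ℕ} {ω : F.S.Ω i} (hω : 0 < (F.S.P i).w ω) {c d : ℕ} (hcd : c ≤ d) (hd : d ≤ K) (k : Fin 2) :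
    |F.s i d (F.N d i ω).τ k - F.s i c (F.N c i ω).τ k| ≤ ((d : ℝ) - c) * |F.C| / 2 ^ (c * F.n i) := by
  induction d, hcd using Nat.le_induction with
  | base => simp
  | succ d hcd ih =>
    have h1 := ih (by omega)
    have h2 := geo_slp1 F hω hd k
    have h3 : |F.C| / 2 ^ (d * F.n i) ≤ |F.C| / 2 ^ (c * F.n i) := by
      refine div_le_div_of_nonneg_left (abs_nonneg _) (by positivity) ?_
      exact pow_le_pow_right₀ (by norm_num) (Nat.mul_le_mul_right _ hcd)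
    have h4 := abs_sub_le (F.s i (d + 1) (F.N (d + 1) i ω).τ k) (F.s i d (F.N d i ω).τ k) (F.s i c (F.N c i ω).τ k)
    have h5 : (((d + 1 : ℕ) : ℝ) - c) * |F.C| / 2 ^ (c * F.n i) =
        |F.C| / 2 ^ (c * F.n i) + ((d : ℝ) - c) * |F.C| / 2 ^ (c * F.n i) := by
      push_cast; ring
    rw [h5]
    linarith

/-- the position of the tube of level `d` at the time of the block of level `c` -/
noncomputable def gp (i : ℕ) (ω : F.S.Ω i) (c d : ℕ) (k : Fin 2) : ℝ :=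
  2 ^ (d * F.n i) * ((F.N d i ω).o k : ℝ) + (gt F i ω c - gt F i ω d) * F.s i d (F.N d i ω).τ k

theorem geo_pos1 {i : ℕ} {ω : F.S.Ω i} (hω : 0 < (F.S.P i).w ω) {c d : ℕ} (hcd : c ≤ d) (hd : d < K) (k : Fin 2) :
    |gp F i ω c (d + 1) k - gp F i ω c d k| ≤ (|F.C| + 2) * 2 ^ ((d + 1) * F.n i) := by
  obtain ⟨t0, t1⟩ := geo_t F hω hcd hd.le
  have hs := geo_slp1 F hω hd k
  have hT := geo_T1 F hω hd
  -- the offset
  have ho : (F.N (d + 1) i ω).o k = ⌊(((F.N d i ω).o k / 2 ^ F.n i : ℤ) : ℝ) -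
      (((F.N d i ω).T % 2 ^ (2 * F.n i) : ℤ) : ℝ) * 2 ^ (2 * d * F.n i) *
        F.s i (d + 1) (F.N (d + 1) i ω).τ k / 2 ^ ((d + 1) * F.n i)⌋ := by
    have h := (F.step i ω hω d hd).2
    have h1 := congrFun (congrArg Nd.o h) k
    exact h1
  have hmod := geo_mod (F.N d i ω).T (2 * F.n i)
  rw [← hT] at hmod
  have hdiv := geo_mod ((F.N d i ω).o k) (F.n i)
  have hr0 : (0 : ℝ) ≤ (((F.N d i ω).o k % 2 ^ F.n i : ℤ) : ℝ) := by
    exact_mod_cast Int.emod_nonneg _ (by positivity)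
  have hr1 : (((F.N d i ω).o k % 2 ^ F.n i : ℤ) : ℝ) ≤ 2 ^ F.n i := by
    exact_mod_cast (Int.emod_lt_of_pos ((F.N d i ω).o k) (by positivity : (0 : ℤ) < 2 ^ F.n i)).le
  set q : ℤ := (F.N d i ω).o k / 2 ^ F.n i with hq
  set r : ℝ := (((F.N d i ω).o k % 2 ^ F.n i : ℤ) : ℝ) with hr
  set s' : ℝ := F.s i (d + 1) (F.N (d + 1) i ω).τ k with hs'
  set s0 : ℝ := F.s i d (F.N d i ω).τ k with hs0
  set A : ℝ := 2 ^ (d * F.n i) with hA
  set B : ℝ := 2 ^ ((d + 1) * F.n i) with hB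
  have hA0 : 0 < A := by positivity
  have hB0 : 0 < B := by positivity
  have hAB : B = A * 2 ^ F.n i := by rw [hA, hB, ← pow_add]; congr 1; ring
  have hAB' : A ≤ B := by
    rw [hAB]
    exact le_mul_of_one_le_right hA0.le (one_le_pow₀ (by norm_num))
  have hAA : (2 : ℝ) ^ (2 * d * F.n i) = A * A := by rw [hA, ← pow_add]; congr 1; ring
  -- floor
  set z : ℝ := (q : ℝ) - (((F.N d i ω).T % 2 ^ (2 * F.n i) : ℤ) : ℝ) * 2 ^ (2 * d * F.n i) * s' / B with hz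
  have f1 := Int.floor_le z
  have f2 := Int.lt_floor_add_one z
  rw [← ho] at f1 f2
  have g1 : B * ((F.N (d + 1) i ω).o k : ℝ) ≤ B * z := mul_le_mul_of_nonneg_left f1 hB0.le
  have g2 : B * z ≤ B * ((F.N (d + 1) i ω).o k : ℝ) + B := by nlinarith
  have hBz : B * z = A * ((F.N d i ω).o k : ℝ) - A * r - (gt F i ω d - gt F i ω (d + 1)) * s' := by
    have e1 : (2 : ℝ) ^ (2 * (d + 1) * F.n i) = 2 ^ (2 * F.n i) * 2 ^ (2 * d * F.n i) := by
      rw [← pow_add]; congr 1; ring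
    have e2 : gt F i ω d - gt F i ω (d + 1) = (((F.N d i ω).T % 2 ^ (2 * F.n i) : ℤ) : ℝ) * 2 ^ (2 * d * F.n i) := by
      unfold gt
      rw [hmod, e1]; ring
    rw [e2, hz, mul_sub, mul_div_cancel₀ _ hB0.ne', hdiv, hAB]
    ring
  have e3 : gp F i ω c (d + 1) k - gp F i ω c d k =
      (B * ((F.N (d + 1) i ω).o k : ℝ) - B * z) - A * r + (gt F i ω c - gt F i ω d) * (s' - s0) := by
    unfold gp
    rw [hBz, ← hA, ← hB, ← hs', ← hs0]
    ring
  have g3 : |(gt F i ω c - gt F i ω d) * (s' - s0)| ≤ |F.C| * B := by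
    rw [abs_mul, abs_of_nonneg t0]
    have h1 : (gt F i ω c - gt F i ω d) * |s' - s0| ≤ (A * A) * (|F.C| / A) := by
      refine mul_le_mul (t1.trans_eq hAA) hs (abs_nonneg _) (by positivity)
    refine h1.trans ?_
    have h2 : A * A * (|F.C| / A) = |F.C| * A := by field_simp
    rw [h2]
    exact mul_le_mul_of_nonneg_left hAB' (abs_nonneg _)
  have g4 : 0 ≤ A * r ∧ A * r ≤ B := by
    rw [hAB]
    exact ⟨by positivity, mul_le_mul_of_nonneg_left hr1 hA0.le⟩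
  rw [e3]
  rw [abs_le] at g3 ⊢
  constructor <;> nlinarith [g3.1, g3.2, g4.1, g4.2]

theorem geo_pos {i : ℕ} {ω : F.S.Ω i} (hω : 0 < (F.S.P i).w ω) {c d : ℕ} (hcd : c ≤ d) (hd : d ≤ K) (k : Fin 2) :
    |gp F i ω c d k - gp F i ω c c k| ≤ ((d : ℝ) - c) * (|F.C| + 2) * 2 ^ (d * F.n i) := by
  induction d, hcd using Nat.le_induction with
  | base => simp
  | succ d hcd ih =>
    have h1 := ih (by omega)
    have h2 := geo_pos1 F hω hcd hd k
    have hcd' : (0 : ℝ) ≤ (d : ℝ) - c := by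
      have : (c : ℝ) ≤ d := by exact_mod_cast hcd
      linarith
    have h3 : ((d : ℝ) - c) * (|F.C| + 2) * 2 ^ (d * F.n i) ≤ ((d : ℝ) - c) * (|F.C| + 2) * 2 ^ ((d + 1) * F.n i) := by
      refine mul_le_mul_of_nonneg_left ?_ (by positivity)
      exact pow_le_pow_right₀ (by norm_num) (Nat.mul_le_mul_right _ (Nat.le_succ _))
    have h4 := abs_sub_le (gp F i ω c (d + 1) k) (gp F i ω c d k) (gp F i ω c c k)
    have h5 : (((d + 1 : ℕ) : ℝ) - c) * (|F.C| + 2) * 2 ^ ((d + 1) * F.n i) =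
        (|F.C| + 2) * 2 ^ ((d + 1) * F.n i) + ((d : ℝ) - c) * (|F.C| + 2) * 2 ^ ((d + 1) * F.n i) := by
      push_cast; ring
    rw [h5]
    linarith

end G535

open G535 in
/-- **geometry of a flag** (second proof; the official one is `H377/E5Geo.lean`) -/
theorem G535.e5Geo535 : E5Geo := by
  intro K F
  refine ⟨1 + K * (|F.C| + 2), by have := abs_nonneg F.C; nlinarith [Nat.cast_nonneg (α := ℝ) K], ?_⟩
  intro i ω hω c d hcd hd
  have hK : (d : ℝ) - c ≤ K := by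
    have h1 : (d : ℝ) ≤ K := by exact_mod_cast hd
    have h2 : (0 : ℝ) ≤ c := Nat.cast_nonneg c
    linarith
  have hcd' : (0 : ℝ) ≤ (d : ℝ) - c := by
    have : (c : ℝ) ≤ d := by exact_mod_cast hcd
    linarith
  have hC := abs_nonneg F.C
  have hKK : (0 : ℝ) ≤ K := Nat.cast_nonneg K
  refine ⟨geo_T F hω hcd hd, geo_τ F hω hcd hd, geo_cap F hω hd, ?_, ?_, ?_, ?_⟩
  · intro k
    refine (geo_slp F hω hcd hd k).trans (div_le_div_of_nonneg_right ?_ (by positivity))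
    nlinarith [mul_le_mul_of_nonneg_right hK hC]
  · intro k
    have h1 := geo_pos F hω hcd hd k
    have h2 : gp F i ω c c k = 2 ^ (c * F.n i) * ((F.N c i ω).o k : ℝ) := by unfold gp; ring
    rw [h2] at h1
    have h3 := (abs_sub_comm _ _).trans_le h1
    refine h3.trans (mul_le_mul_of_nonneg_right ?_ (by positivity))
    nlinarith [mul_le_mul_of_nonneg_right hK (by linarith : (0 : ℝ) ≤ |F.C| + 2)]
  · exact (geo_t F hω hcd hd).1
  · exact (geo_t F hω hcd hd).2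

end Vale.Agent.P122.E
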